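import Mathlib

/-!
P015: blocks of composite Gaussian integers along the real axis.
-/

namespace Vale.Agent.P015

/-- the modulus `(s L)² + 1` -/
def md (L s : ℕ) : ℕ := (s * L) ^ 2 + 1

theorem coprime_md {K L : ℕ} (hL : ∀ p, p.Prime → p ≤ 2 * K → p ∣ L) {s t : ℕ} (hst : s < t)
    (ht : t ≤ K) : Nat.Coprime (md L s) (md L t) := by
  by_contra hcon
  obtain ⟨p, hp, h1, h2⟩ := Nat.Prime.not_coprime_iff_dvd.1 hcon
  have key : p ∣ L := by
    have h3 : p ∣ md L t - md L s := Nat.dvd_sub h2 h1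
    have h4 : md L t - md L s = L ^ 2 * ((t - s) * (t + s)) := by
      obtain ⟨k, rfl⟩ := Nat.exists_eq_add_of_lt hst
      unfold md
      have e1 : s + k + 1 - s = k + 1 := by omega
      rw [e1]
      have e2 : ((s + k + 1) * L) ^ 2 + 1 = (s * L) ^ 2 + 1 + L ^ 2 * ((k + 1) * (s + k + 1 + s)) := by
        ring
      rw [e2]
      omega
    rw [h4] at h3
    rcases (Nat.Prime.dvd_mul hp).1 h3 with h | h
    · exact hp.dvd_of_dvd_pow h
    · rcases (Nat.Prime.dvd_mul hp).1 h with h | h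
      · exact hL p hp ((Nat.le_of_dvd (by omega) h).trans (by omega))
      · exact hL p hp ((Nat.le_of_dvd (by omega) h).trans (by omega))
  have h5 : p ∣ (s * L) ^ 2 := dvd_pow (Dvd.dvd.mul_left key s) two_ne_zero
  have h6 : p ∣ 1 := (Nat.dvd_add_right h5).1 h1
  exact hp.one_lt.ne' (Nat.dvd_one.1 h6)

/-- `s L + i` divides `x + i y` if `(s L)² + 1` divides `x - s L y` -/
theorem dvd_of_md {L s : ℕ} {x y : ℤ} (h : (md L s : ℤ) ∣ x - s * L * y) :
    (⟨s * L, 1⟩ : GaussianInt) ∣ ⟨x, y⟩ := by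
  obtain ⟨k, hk⟩ := h
  refine ⟨⟨s * L * k + y, -k⟩, ?_⟩
  have hm : ((md L s : ℕ) : ℤ) = (s * L) ^ 2 + 1 := by
    unfold md
    push_cast
    ring
  rw [hm] at hk
  have hx : x = s * L * y + ((s * L) ^ 2 + 1) * k := by linarith
  apply Zsqrtd.ext
  · rw [Zsqrtd.re_mul]
    simp only
    rw [hx]
    ring
  · rw [Zsqrtd.im_mul]
    simp only
    ring

theorem norm_gi (x y : ℤ) : (⟨x, y⟩ : GaussianInt).norm = x ^ 2 + y ^ 2 := by
  rw [Zsqrtd.norm_def]
  simp only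
  ring

/-- a multiple of `s L + i` of larger norm is not prime -/
theorem not_prime_of_md {L s : ℕ} (hs : 0 < s) (hL : 0 < L) {x y : ℤ}
    (h : (md L s : ℤ) ∣ x - s * L * y) (hx : (md L s : ℤ) < x ^ 2) :
    ¬ Prime (⟨x, y⟩ : GaussianInt) := by
  intro hp
  obtain ⟨w, hw⟩ := dvd_of_md h
  have hn : (⟨(s : ℤ) * L, 1⟩ : GaussianInt).norm = (md L s : ℤ) := by
    rw [norm_gi]
    unfold md
    push_cast
    ring
  have hm2 : 2 ≤ md L s := by
    unfold md
    have : 0 < (s * L) ^ 2 := by positivity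
    omega
  rcases hp.irreducible.isUnit_or_isUnit hw with hu | hu
  · rw [← Zsqrtd.norm_eq_one_iff, hn, Int.natAbs_natCast] at hu
    omega
  · have h1 : (⟨x, y⟩ : GaussianInt).norm.natAbs = md L s := by
      rw [hw, Zsqrtd.norm_mul, Int.natAbs_mul, Zsqrtd.norm_eq_one_iff.2 hu, hn,
        Int.natAbs_natCast, mul_one]
    rw [norm_gi] at h1
    have h2 : 0 ≤ x ^ 2 + y ^ 2 := by positivity
    have h3 : x ^ 2 + y ^ 2 = (md L s : ℤ) := by
      rw [← h1, Int.natAbs_of_nonneg h2]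
    nlinarith [sq_nonneg y]

theorem exists_L (K : ℕ) : ∃ L : ℕ, 0 < L ∧ L ≤ 4 ^ (2 * K) ∧
    ∀ p, p.Prime → p ≤ 2 * K → p ∣ L := by
  refine ⟨primorial (2 * K), primorial_pos _, primorial_le_four_pow _, fun p hp hpK => ?_⟩
  unfold primorial
  apply Finset.dvd_prod_of_mem
  simp [hp]
  omega

/-- the block: for all `d ≥ 1` and `W` there are a period `M` and a residue `r` -/
theorem exists_block (d W : ℕ) (hd : 0 < d) (hW : 0 < W) : ∃ (M : ℕ) (r : ℤ),
    M ≤ 2 ^ (11 * (d * (2 * W + 1)) ^ 2) ∧ d ≤ M ∧ W ≤ M ∧ 2 ≤ M ∧ 0 ≤ r ∧ r < M ∧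
    ∀ (x y q : ℤ) (j : ℕ), j < d → |y| ≤ W → x = r + j + M * q → (M : ℤ) ≤ |x| →
      ¬ Prime (⟨x, y⟩ : GaussianInt) := by
  set K : ℕ := d * (2 * W + 1) with hK
  have hKpos : 0 < K := by positivity
  obtain ⟨L, hL0, hL1, hL2⟩ := exists_L K
  set m : ℕ → ℕ := fun s => md L (s + 1) with hm
  have hmpos : ∀ s, 2 ≤ m s := by
    intro s
    simp only [hm]
    unfold md
    have : 0 < ((s + 1) * L) ^ 2 := by positivity
    omega
  set a : ℕ → ℕ := fun s => ((((s + 1 : ℕ) : ℤ) * L * ((s % (2 * W + 1) : ℕ) - (W : ℤ)) -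
    (s / (2 * W + 1) : ℕ)) % (m s : ℤ)).toNat with ha
  have hco : Set.Pairwise (Finset.range K : Set ℕ) (Function.onFun Nat.Coprime m) := by
    intro s hs t ht hne
    rw [Finset.mem_coe, Finset.mem_range] at hs ht
    rcases lt_or_gt_of_ne hne with h | h
    · exact coprime_md hL2 (by omega) (by omega)
    · exact (coprime_md hL2 (by omega) (by omega)).symm
  have hne0 : ∀ s ∈ Finset.range K, m s ≠ 0 := fun s _ => by
    have := hmpos s
    omega
  set r := Nat.chineseRemainderOfFinset a m (Finset.range K) hne0 hco with hr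
  have hr1 := r.2
  have hr2 : (r : ℕ) < ∏ s ∈ Finset.range K, m s :=
    Nat.chineseRemainderOfFinset_lt_prod a m hne0 hco
  set M : ℕ := ∏ s ∈ Finset.range K, m s with hM
  have hdvd : ∀ s < K, m s ∣ M := fun s hs => Finset.dvd_prod_of_mem m (Finset.mem_range.2 hs)
  have hMpos : 0 < M := Finset.prod_pos fun s _ => by
    have := hmpos s
    omega
  have hML : K + 1 ≤ M := by
    have h1 : m (K - 1) ≤ M := Nat.le_of_dvd hMpos (hdvd (K - 1) (by omega))
    have h2 : K + 1 ≤ m (K - 1) := by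
      simp only [hm]
      unfold md
      have e : K - 1 + 1 = K := by omega
      rw [e]
      have : K ≤ (K * L) ^ 2 := by
        calc K ≤ K * L := Nat.le_mul_of_pos_right _ hL0
          _ ≤ (K * L) ^ 2 := Nat.le_self_pow two_ne_zero _
      omega
    omega
  have hMle : M ≤ 2 ^ (11 * K ^ 2) := by
    have h1 : ∀ s ∈ Finset.range K, m s ≤ 2 ^ (11 * K) := by
      intro s hs
      rw [Finset.mem_range] at hs
      simp only [hm]
      unfold md
      have h2 : (s + 1) * L ≤ 2 ^ K * 4 ^ (2 * K) :=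
        Nat.mul_le_mul ((by omega : s + 1 ≤ K).trans (Nat.lt_two_pow_self).le) hL1
      have h3 : 2 ^ K * 4 ^ (2 * K) = 2 ^ (5 * K) := by
        rw [show (4 : ℕ) = 2 ^ 2 by norm_num, ← pow_mul, ← pow_add]
        congr 1
        ring
      rw [h3] at h2
      have h4 : ((s + 1) * L) ^ 2 ≤ 2 ^ (10 * K) := by
        calc ((s + 1) * L) ^ 2 ≤ (2 ^ (5 * K)) ^ 2 := Nat.pow_le_pow_left h2 2
          _ = 2 ^ (10 * K) := by rw [← pow_mul]; congr 1; ring
      have h5 : 2 ^ (10 * K) + 1 ≤ 2 ^ (11 * K) := by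
        have h6 : 2 ^ (11 * K) = 2 ^ (10 * K) * 2 ^ K := by rw [← pow_add]; congr 1; ring
        have h7 : 2 ≤ 2 ^ K := Nat.le_self_pow (by omega) 2
        have h8 : 1 ≤ 2 ^ (10 * K) := Nat.one_le_two_pow
        rw [h6]
        nlinarith
      omega
    calc M ≤ ∏ _s ∈ Finset.range K, 2 ^ (11 * K) := Finset.prod_le_prod' h1
      _ = 2 ^ (11 * K ^ 2) := by
        rw [Finset.prod_const, Finset.card_range, ← pow_mul]
        congr 1
        ring
  have hWK : W ≤ K := by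
    rw [hK]
    nlinarith
  have hdK : d ≤ K := by
    rw [hK]
    nlinarith
  refine ⟨M, ((r : ℕ) : ℤ), hMle, by omega, by omega, by omega, by omega, by exact_mod_cast hr2, ?_⟩
  intro x y q j hj hy hx hxM
  rw [abs_le] at hy
  obtain ⟨v, hv⟩ : ∃ v : ℕ, (v : ℤ) = y + W := ⟨(y + W).toNat, Int.toNat_of_nonneg (by omega)⟩
  have hv1 : v < 2 * W + 1 := by omega
  set s : ℕ := j * (2 * W + 1) + v with hs
  have hsK : s < K := by
    rw [hs, hK]
    calc j * (2 * W + 1) + v < j * (2 * W + 1) + (2 * W + 1) := by omega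
      _ = (j + 1) * (2 * W + 1) := by ring
      _ ≤ d * (2 * W + 1) := Nat.mul_le_mul_right _ hj
  have hmod : s % (2 * W + 1) = v := by
    rw [hs, Nat.mul_add_mod_self_right, Nat.mod_eq_of_lt hv1]
  have hdiv : s / (2 * W + 1) = j := by
    rw [hs, Nat.add_comm, Nat.add_mul_div_right _ _ (by omega : 0 < 2 * W + 1),
      Nat.div_eq_of_lt hv1, zero_add]
  have h1 := hr1 s (Finset.mem_range.2 hsK)
  have hmz : (0 : ℤ) < (m s : ℤ) := by
    have := hmpos s
    omega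
  have h2 : ((a s : ℕ) : ℤ) = (((s + 1 : ℕ) : ℤ) * L * y - j) % (m s : ℤ) := by
    simp only [ha]
    rw [hmod, hdiv, hv, Int.toNat_of_nonneg (Int.emod_nonneg _ hmz.ne')]
    congr 2
    ring
  have h3 : (m s : ℤ) ∣ (r : ℕ) - (((s + 1 : ℕ) : ℤ) * L * y - j) := by
    have h4 : (m s : ℤ) ∣ ((r : ℕ) : ℤ) - (a s : ℕ) :=
      (Int.natCast_modEq_iff.2 h1).symm.dvd
    have h5 : (m s : ℤ) ∣ ((a s : ℕ) : ℤ) - (((s + 1 : ℕ) : ℤ) * L * y - j) := by
      rw [h2]
      exact (Int.mod_modEq _ _).symm.dvd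
    have h6 := dvd_add h4 h5
    rwa [sub_add_sub_cancel] at h6
  have h7 : (m s : ℤ) ∣ (M : ℤ) := by exact_mod_cast hdvd s hsK
  have h8 : (md L (s + 1) : ℤ) ∣ x - ((s + 1 : ℕ) : ℤ) * L * y := by
    have h9 : x - ((s + 1 : ℕ) : ℤ) * L * y =
        ((r : ℕ) - (((s + 1 : ℕ) : ℤ) * L * y - j)) + M * q := by
      rw [hx]
      ring
    rw [h9]
    exact dvd_add h3 (Dvd.dvd.mul_right h7 q)
  refine not_prime_of_md (Nat.succ_pos s) hL0 h8 ?_
  have h10 : (m s : ℤ) ≤ M := by exact_mod_cast Nat.le_of_dvd hMpos (hdvd s hsK)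
  have h11 : (2 : ℤ) ≤ M := by
    have : 2 ≤ M := by omega
    exact_mod_cast this
  have h12 : (M : ℤ) ^ 2 ≤ x ^ 2 := by
    rw [← sq_abs x]
    exact pow_le_pow_left₀ (by omega) hxM 2
  change (m s : ℤ) < x ^ 2
  nlinarith

end Vale.Agent.P015
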