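import Mathlib
import Vale.Agent.Lib.P015.Blk

/-!
P015: blocks of composite Gaussian integers along a line through Gaussian integers.
-/

namespace Vale.Agent.P015

/-- `s L + i` is coprime to every `v` whose norm has only prime factors dividing `L` -/
theorem coprime_of_norm {L s N : ℕ} (hL : ∀ p, p.Prime → p ≤ N → p ∣ L) {v : GaussianInt}
    (hv : v.norm = N) (hN : 0 < N) : IsCoprime (⟨s * L, 1⟩ : GaussianInt) (star v) := by
  have h1 : Nat.Coprime (md L s) N := by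
    by_contra hcon
    obtain ⟨p, hp, h1, h2⟩ := Nat.Prime.not_coprime_iff_dvd.1 hcon
    have h3 := hL p hp (Nat.le_of_dvd hN h2)
    have h5 : p ∣ (s * L) ^ 2 := dvd_pow (Dvd.dvd.mul_left h3 s) two_ne_zero
    have h6 : p ∣ 1 := (Nat.dvd_add_right h5).1 h1
    exact hp.one_lt.ne' (Nat.dvd_one.1 h6)
  obtain ⟨a, b, hab⟩ := Nat.isCoprime_iff_coprime.2 h1
  have h2 : (⟨s * L, 1⟩ : GaussianInt) * ⟨s * L, -1⟩ = ((md L s : ℤ) : GaussianInt) := by
    have hm : ((md L s : ℕ) : ℤ) = (s * L) ^ 2 + 1 := by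
      unfold md
      push_cast
      ring
    apply Zsqrtd.ext
    · rw [Zsqrtd.re_mul, Zsqrtd.re_intCast, hm]
      ring
    · rw [Zsqrtd.im_mul, Zsqrtd.im_intCast]
      ring
  have h3 : star v * v = ((N : ℤ) : GaussianInt) := by
    rw [mul_comm, ← Zsqrtd.norm_eq_mul_conj, hv]
  refine ⟨(a : GaussianInt) * ⟨s * L, -1⟩, (b : GaussianInt) * v, ?_⟩
  have h4 : (a : GaussianInt) * ⟨s * L, -1⟩ * ⟨s * L, 1⟩ + (b : GaussianInt) * v * star v =
      (a : GaussianInt) * (⟨s * L, 1⟩ * ⟨s * L, -1⟩) + (b : GaussianInt) * (star v * v) := by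
    ring
  rw [h4, h2, h3]
  exact_mod_cast congrArg (fun t : ℤ => (t : GaussianInt)) hab

/-- a Gaussian integer of norm larger than `(s L)² + 1` which is divisible by `s L + i` is not
prime -/
theorem not_prime_of_dvd {L s : ℕ} (hs : 0 < s) (hL : 0 < L) {z : GaussianInt}
    (h : (⟨s * L, 1⟩ : GaussianInt) ∣ z) (hz : (md L s : ℤ) < z.norm) : ¬ Prime z := by
  intro hp
  obtain ⟨w, hw⟩ := h
  have hn : (⟨(s : ℤ) * L, 1⟩ : GaussianInt).norm = (md L s : ℤ) := by
    rw [norm_gi]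
    unfold md
    push_cast
    ring
  have hm2 : 2 ≤ md L s := by
    unfold md
    have : 0 < (s * L) ^ 2 := by positivity
    omega
  rcases hp.irreducible.isUnit_or_isUnit hw with hu | hu
  · rw [← Zsqrtd.norm_eq_one_iff, hn, Int.natAbs_natCast] at hu
    omega
  · have h1 : z.norm.natAbs = md L s := by
      rw [hw, Zsqrtd.norm_mul, Int.natAbs_mul, Zsqrtd.norm_eq_one_iff.2 hu, hn,
        Int.natAbs_natCast, mul_one]
    have h2 : 0 ≤ z.norm := GaussianInt.norm_nonneg z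
    omega

/-- the block in the coordinates along the line -/
theorem exists_blockG (d W N : ℕ) (A B : ℤ) (hd : 0 < d) (hW : 0 < W) : ∃ (M : ℕ) (r : ℤ),
    M ≤ 2 ^ ((11 + 4 * N) * (d * (2 * W + 1)) ^ 2) ∧ d ≤ M ∧ W ≤ M ∧ 2 ≤ M ∧ 0 ≤ r ∧ r < M ∧
    ∀ (x y q : ℤ) (j : ℕ), j < d → |y| ≤ W → x = r + j + M * q →
      ∃ L s : ℕ, 0 < s ∧ 0 < L ∧ (∀ p, p.Prime → p ≤ N → p ∣ L) ∧
        (md L s : ℤ) ∣ (x + A) - s * L * (y + B) ∧ md L s ≤ M := by
  set K : ℕ := d * (2 * W + 1) with hK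
  have hKpos : 0 < K := by positivity
  obtain ⟨L, hL0, hL1, hL2⟩ : ∃ L : ℕ, 0 < L ∧ L ≤ 4 ^ (2 * K + N) ∧
      ∀ p, p.Prime → p ≤ 2 * K + N → p ∣ L := by
    refine ⟨primorial (2 * K + N), primorial_pos _, primorial_le_four_pow _, fun p hp hpK => ?_⟩
    unfold primorial
    apply Finset.dvd_prod_of_mem
    simp [hp]
    omega
  set m : ℕ → ℕ := fun s => md L (s + 1) with hm
  have hmpos : ∀ s, 2 ≤ m s := by
    intro s
    simp only [hm]
    unfold md
    have : 0 < ((s + 1) * L) ^ 2 := by positivity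
    omega
  set a : ℕ → ℕ := fun s => ((((s + 1 : ℕ) : ℤ) * L * ((s % (2 * W + 1) : ℕ) - (W : ℤ) + B) -
    (s / (2 * W + 1) : ℕ) - A) % (m s : ℤ)).toNat with ha
  have hco : Set.Pairwise (Finset.range K : Set ℕ) (Function.onFun Nat.Coprime m) := by
    intro s hs t ht hne
    rw [Finset.mem_coe, Finset.mem_range] at hs ht
    have hL3 : ∀ p, p.Prime → p ≤ 2 * K → p ∣ L := fun p hp h => hL2 p hp (by omega)
    rcases lt_or_gt_of_ne hne with h | h
    · exact coprime_md hL3 (by omega) (by omega)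
    · exact (coprime_md hL3 (by omega) (by omega)).symm
  have hne0 : ∀ s ∈ Finset.range K, m s ≠ 0 := fun s _ => by
    have := hmpos s
    omega
  set r := Nat.chineseRemainderOfFinset a m (Finset.range K) hne0 hco with hr
  have hr1 := r.2
  have hr2 : (r : ℕ) < ∏ s ∈ Finset.range K, m s :=
    Nat.chineseRemainderOfFinset_lt_prod a m hne0 hco
  set M : ℕ := ∏ s ∈ Finset.range K, m s with hM
  have hdvd : ∀ s < K, m s ∣ M := fun s hs => Finset.dvd_prod_of_mem m (Finset.mem_range.2 hs)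
  have hMpos : 0 < M := Finset.prod_pos fun s _ => by
    have := hmpos s
    omega
  have hML : K + 1 ≤ M := by
    have h1 : m (K - 1) ≤ M := Nat.le_of_dvd hMpos (hdvd (K - 1) (by omega))
    have h2 : K + 1 ≤ m (K - 1) := by
      simp only [hm]
      unfold md
      have e : K - 1 + 1 = K := by omega
      rw [e]
      have : K ≤ (K * L) ^ 2 := by
        calc K ≤ K * L := Nat.le_mul_of_pos_right _ hL0
          _ ≤ (K * L) ^ 2 := Nat.le_self_pow two_ne_zero _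
      omega
    omega
  have hMle : M ≤ 2 ^ ((11 + 4 * N) * K ^ 2) := by
    have h1 : ∀ s ∈ Finset.range K, m s ≤ 2 ^ ((11 + 4 * N) * K) := by
      intro s hs
      rw [Finset.mem_range] at hs
      simp only [hm]
      unfold md
      have h2 : (s + 1) * L ≤ 2 ^ K * 4 ^ (2 * K + N) :=
        Nat.mul_le_mul ((by omega : s + 1 ≤ K).trans (Nat.lt_two_pow_self).le) hL1
      have h3 : 2 ^ K * 4 ^ (2 * K + N) = 2 ^ (5 * K + 2 * N) := by
        rw [show (4 : ℕ) = 2 ^ 2 by norm_num, ← pow_mul, ← pow_add]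
        congr 1
        ring
      rw [h3] at h2
      have h4 : ((s + 1) * L) ^ 2 ≤ 2 ^ (10 * K + 4 * N) := by
        calc ((s + 1) * L) ^ 2 ≤ (2 ^ (5 * K + 2 * N)) ^ 2 := Nat.pow_le_pow_left h2 2
          _ = 2 ^ (10 * K + 4 * N) := by rw [← pow_mul]; congr 1; ring
      have h5 : 2 ^ (10 * K + 4 * N) + 1 ≤ 2 ^ (11 * K + 4 * N) := by
        have h6 : 2 ^ (11 * K + 4 * N) = 2 ^ (10 * K + 4 * N) * 2 ^ K := by
          rw [← pow_add]; congr 1; ring
        have h7 : 2 ≤ 2 ^ K := Nat.le_self_pow (by omega) 2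
        have h8 : 1 ≤ 2 ^ (10 * K + 4 * N) := Nat.one_le_two_pow
        rw [h6]
        nlinarith
      have h9 : 2 ^ (11 * K + 4 * N) ≤ 2 ^ ((11 + 4 * N) * K) := by
        apply Nat.pow_le_pow_right (by norm_num)
        nlinarith
      omega
    calc M ≤ ∏ _s ∈ Finset.range K, 2 ^ ((11 + 4 * N) * K) := Finset.prod_le_prod' h1
      _ = 2 ^ ((11 + 4 * N) * K ^ 2) := by
        rw [Finset.prod_const, Finset.card_range, ← pow_mul]
        congr 1
        ring
  have hWK : W ≤ K := by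
    rw [hK]
    nlinarith
  have hdK : d ≤ K := by
    rw [hK]
    nlinarith
  refine ⟨M, ((r : ℕ) : ℤ), hMle, by omega, by omega, by omega, by omega, by exact_mod_cast hr2, ?_⟩
  intro x y q j hj hy hx
  rw [abs_le] at hy
  obtain ⟨v, hv⟩ : ∃ v : ℕ, (v : ℤ) = y + W := ⟨(y + W).toNat, Int.toNat_of_nonneg (by omega)⟩
  have hv1 : v < 2 * W + 1 := by omega
  set s : ℕ := j * (2 * W + 1) + v with hs
  have hsK : s < K := by
    rw [hs, hK]
    calc j * (2 * W + 1) + v < j * (2 * W + 1) + (2 * W + 1) := by omega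
      _ = (j + 1) * (2 * W + 1) := by ring
      _ ≤ d * (2 * W + 1) := Nat.mul_le_mul_right _ hj
  have hmod : s % (2 * W + 1) = v := by
    rw [hs, Nat.mul_add_mod_self_right, Nat.mod_eq_of_lt hv1]
  have hdiv : s / (2 * W + 1) = j := by
    rw [hs, Nat.add_comm, Nat.add_mul_div_right _ _ (by omega : 0 < 2 * W + 1),
      Nat.div_eq_of_lt hv1, zero_add]
  have h1 := hr1 s (Finset.mem_range.2 hsK)
  have hmz : (0 : ℤ) < (m s : ℤ) := by
    have := hmpos s
    omega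
  have h2 : ((a s : ℕ) : ℤ) = (((s + 1 : ℕ) : ℤ) * L * (y + B) - j - A) % (m s : ℤ) := by
    simp only [ha]
    rw [hmod, hdiv, hv, Int.toNat_of_nonneg (Int.emod_nonneg _ hmz.ne')]
    congr 4
    ring
  have h3 : (m s : ℤ) ∣ (r : ℕ) - (((s + 1 : ℕ) : ℤ) * L * (y + B) - j - A) := by
    have h4 : (m s : ℤ) ∣ ((r : ℕ) : ℤ) - (a s : ℕ) :=
      (Int.natCast_modEq_iff.2 h1).symm.dvd
    have h5 : (m s : ℤ) ∣ ((a s : ℕ) : ℤ) - (((s + 1 : ℕ) : ℤ) * L * (y + B) - j - A) := by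
      rw [h2]
      exact (Int.mod_modEq _ _).symm.dvd
    have h6 := dvd_add h4 h5
    rwa [sub_add_sub_cancel] at h6
  have h7 : (m s : ℤ) ∣ (M : ℤ) := by exact_mod_cast hdvd s hsK
  refine ⟨L, s + 1, Nat.succ_pos s, hL0, fun p hp h => hL2 p hp (by omega), ?_,
    Nat.le_of_dvd hMpos (hdvd s hsK)⟩
  have h9 : (x + A) - ((s + 1 : ℕ) : ℤ) * L * (y + B) =
      ((r : ℕ) - (((s + 1 : ℕ) : ℤ) * L * (y + B) - j - A)) + M * q := by
    rw [hx]
    ring
  rw [h9]
  exact dvd_add h3 (Dvd.dvd.mul_right h7 q)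

end Vale.Agent.P015
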